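import Mathlib

namespace Vale.Agent.P344

/-- The value carried by a node of a circuit with `n` inputs: a function of the input vector. -/
abbrev Val (n : ℕ) := (Fin n → ℂ) → ℂ

/-- `Avail g k f`: the value `f` may be fed into gate number `k` of the gate sequence `g`;
it is the constant `0`, an input coordinate, or the value of a gate with a smaller number. -/
def Avail {n s : ℕ} (g : Fin s → Val n) (k : ℕ) (f : Val n) : Prop :=
  f = 0 ∨ (∃ i : Fin n, f = fun x => x i) ∨ ∃ i : Fin s, (i : ℕ) < k ∧ f = g i

/-- `IsCircuit g`: the sequence `g` lists the values of the `s` gates of a linear circuit; each gate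
is `u + v`, `u - v` or `c • u` (any complex `c`) for values `u`, `v` available to it. -/
def IsCircuit {n s : ℕ} (g : Fin s → Val n) : Prop :=
  ∀ k : Fin s,
    (∃ u v : Val n, Avail g k u ∧ Avail g k v ∧ (g k = u + v ∨ g k = u - v)) ∨
      ∃ (c : ℂ) (u : Val n), Avail g k u ∧ g k = c • u

/-- Output number `j` of the unnormalized discrete Fourier transform of size `n`. -/
noncomputable def dftOut (n : ℕ) (j : Fin n) : Val n :=
  fun x => ∑ k : Fin n, Complex.exp (2 * Real.pi * Complex.I / n) ^ ((j : ℕ) * (k : ℕ)) * x k

/-- The circuit computes `F_n x`: every output is among the computed values. -/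
def ComputesDFT {n s : ℕ} (g : Fin s → Val n) : Prop :=
  ∀ j : Fin n, Avail g s (dftOut n j)

end Vale.Agent.P344
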