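import Mathlib

namespace Vale.Agent.P344

open Finset

variable {ι 𝕜 : Type*} [DecidableEq ι] [Field 𝕜]

/-- vectors usable by gate number `k` : zero, unit vectors, earlier gate vectors -/
def Av (w : ℕ → ι → 𝕜) (k : ℕ) (u : ι → 𝕜) : Prop :=
  u = 0 ∨ (∃ i, u = Pi.single i 1) ∨ ∃ i < k, u = w i

/-- keep only the coordinates in `C` -/
def msk (C : Finset ι) (v : ι → 𝕜) : ι → 𝕜 := fun i => if i ∈ C then v i else 0

/-- gate `k` gives a new projective point after masking to `C` -/
def New (w : ℕ → ι → 𝕜) (C : Finset ι) (k : ℕ) : Prop :=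
  ∀ u, Av w k u → ∀ c : 𝕜, msk C (w k) ≠ c • msk C u

def Gate (w : ℕ → ι → 𝕜) (k : ℕ) : Prop :=
  ∃ u v, ∃ a b : 𝕜, Av w k u ∧ Av w k v ∧ w k = a • u + b • v

lemma Av.mono {w : ℕ → ι → 𝕜} {k k' : ℕ} (h : k ≤ k') {u : ι → 𝕜} (hu : Av w k u) : Av w k' u := by
  rcases hu with h0 | h1 | ⟨i, hi, h2⟩
  · exact Or.inl h0
  · exact Or.inr (Or.inl h1)
  · exact Or.inr (Or.inr ⟨i, lt_of_lt_of_le hi h, h2⟩)

lemma msk_add (C : Finset ι) (u v : ι → 𝕜) : msk C (u + v) = msk C u + msk C v := by
  funext i; simp only [msk, Pi.add_apply]; split_ifs <;> simp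

lemma msk_smul (C : Finset ι) (a : 𝕜) (u : ι → 𝕜) : msk C (a • u) = a • msk C u := by
  funext i; simp only [msk, Pi.smul_apply, smul_eq_mul]; split_ifs <;> simp

lemma msk_zero (C : Finset ι) : msk C (0 : ι → 𝕜) = 0 := by
  funext i; simp [msk]

lemma msk_single_mem {C : Finset ι} {i : ι} (h : i ∈ C) :
    msk C (Pi.single i (1 : 𝕜)) = Pi.single i 1 := by
  funext j; simp only [msk]; split_ifs with hj
  · rfl
  · have : j ≠ i := fun e => hj (e ▸ h)
    simp [Pi.single_apply, this]

lemma msk_single_not_mem {C : Finset ι} {i : ι} (h : i ∉ C) :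
    msk C (Pi.single i (1 : 𝕜)) = 0 := by
  funext j; simp only [msk]; split_ifs with hj
  · have : j ≠ i := fun e => h (e ▸ hj)
    simp [Pi.single_apply, this]
  · rfl

lemma msk_erase_msk (C : Finset ι) (c : ι) (v : ι → 𝕜) :
    msk (C.erase c) (msk C v) = msk (C.erase c) v := by
  funext j; simp only [msk, mem_erase]
  by_cases h1 : j ≠ c ∧ j ∈ C
  · simp [h1, h1.2]
  · simp [h1]

lemma msk_univ [Fintype ι] (v : ι → 𝕜) : msk (Finset.univ) v = v := by
  funext j; simp [msk]

lemma msk_apply_mem {C : Finset ι} {i : ι} (h : i ∈ C) (v : ι → 𝕜) : msk C v i = v i := by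
  simp [msk, h]

lemma New.mono {w : ℕ → ι → 𝕜} {C : Finset ι} {c : ι} {k : ℕ} (h : New w (C.erase c) k) :
    New w C k := by
  intro u hu a he
  apply h u hu a
  rw [← msk_erase_msk C c (w k), he, msk_smul, msk_erase_msk]

/-- a masked vector lying on a coordinate axis of `C` -/
def Axial (C : Finset ι) (v : ι → 𝕜) : Prop := ∃ i ∈ C, ∃ a : 𝕜, v = a • Pi.single i 1

lemma Axial.smul {C : Finset ι} {v : ι → 𝕜} (h : Axial C v) (c : 𝕜) : Axial C (c • v) := by
  obtain ⟨i, hi, a, rfl⟩ := h
  exact ⟨i, hi, c * a, by rw [smul_smul]⟩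

lemma axial_of_no_new {w : ℕ → ι → 𝕜} {C : Finset ι} (hC : C.Nonempty) :
    ∀ k : ℕ, (∀ m < k, ¬ New w C m) → ∀ u, Av w k u → Axial C (msk C u) := by
  intro k
  induction k using Nat.strong_induction_on with
  | _ k ih =>
    intro hno u hu
    obtain ⟨i0, hi0⟩ := hC
    rcases hu with rfl | ⟨i, rfl⟩ | ⟨m, hm, rfl⟩
    · exact ⟨i0, hi0, 0, by simp [msk_zero]⟩
    · by_cases hi : i ∈ C
      · exact ⟨i, hi, 1, by simp [msk_single_mem hi]⟩
      · exact ⟨i0, hi0, 0, by simp [msk_single_not_mem hi]⟩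
    · have hn := hno m hm
      unfold New at hn
      push Not at hn
      obtain ⟨u', hu', c, hc⟩ := hn
      rw [hc]
      exact (ih m hm (fun m' hm' => hno m' (lt_trans hm' hm)) u' hu').smul c


/-- hypotheses on a family of target rows, relative to the live coordinate set `C` -/
structure Rows (w : ℕ → ι → 𝕜) (K : ℕ) (C : Finset ι) (Y : Set (ι → 𝕜)) : Prop where
  av : ∀ y ∈ Y, ∃ u, ∃ c : 𝕜, Av w K u ∧ y = c • u
  nz : ∀ y ∈ Y, ∀ i ∈ C, y i ≠ 0
  ind : ∀ i ∈ C, ∀ j ∈ C, i ≠ j → ∃ y ∈ Y, ∃ y' ∈ Y, y i * y' j ≠ y j * y' i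

lemma Rows.erase {w : ℕ → ι → 𝕜} {K : ℕ} {C : Finset ι} {Y : Set (ι → 𝕜)} (h : Rows w K C Y)
    (c : ι) : Rows w K (C.erase c) Y where
  av := h.av
  nz := fun y hy i hi => h.nz y hy i (mem_of_mem_erase hi)
  ind := fun i hi j hj hij => h.ind i (mem_of_mem_erase hi) j (mem_of_mem_erase hj) hij

lemma exists_new {w : ℕ → ι → 𝕜} {K : ℕ} {C : Finset ι} {Y : Set (ι → 𝕜)} (h : Rows w K C Y)
    (hC : 2 ≤ C.card) : ∃ k < K, New w C k := by
  by_contra hcon
  push Not at hcon
  obtain ⟨i, hi, j, hj, hij⟩ := Finset.one_lt_card.mp hC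
  obtain ⟨y, hy, -, -, -⟩ := h.ind i hi j hj hij
  obtain ⟨u, c, hu, rfl⟩ := h.av y hy
  have hax := (axial_of_no_new (w := w) ⟨i, hi⟩ K hcon u hu).smul c
  rw [← msk_smul] at hax
  obtain ⟨l, hl, a, ha⟩ := hax
  have h1 : ∀ t ∈ C, t ≠ l → False := by
    intro t ht htl
    have := congrFun ha t
    rw [msk_apply_mem ht] at this
    apply h.nz _ hy t ht
    rw [this]
    simp [htl]
  by_cases hil : i = l
  · exact h1 j hj (fun e => hij (hil.trans e.symm))
  · exact h1 i hi hil

/-- the three possible shapes in the propagation argument -/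
def Tri (i j : ι) (α β : 𝕜) (v : ι → 𝕜) : Prop :=
  β * v i = α * v j ∨ (∃ a : 𝕜, v = a • Pi.single i 1) ∨ ∃ a : 𝕜, v = a • Pi.single j 1

lemma Tri.smul {i j : ι} {α β : 𝕜} {v : ι → 𝕜} (h : Tri i j α β v) (c : 𝕜) :
    Tri i j α β (c • v) := by
  rcases h with h | ⟨a, rfl⟩ | ⟨a, rfl⟩
  · left
    simp only [Pi.smul_apply, smul_eq_mul]
    linear_combination c * h
  · right; left; exact ⟨c * a, by rw [smul_smul]⟩
  · right; right; exact ⟨c * a, by rw [smul_smul]⟩

lemma step {w : ℕ → ι → 𝕜} {K : ℕ} {C : Finset ι} {Y : Set (ι → 𝕜)} (h : Rows w K C Y)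
    (hG : ∀ k < K, Gate w k) (hC : 2 ≤ C.card) :
    ∃ c ∈ C, ∃ k1 < K, ∃ k2 < K, k1 ≠ k2 ∧ New w C k1 ∧ ¬ New w (C.erase c) k1 ∧
      New w C k2 ∧ ¬ New w (C.erase c) k2 := by
  classical
  have hex : ∃ k, k < K ∧ New w C k := by
    obtain ⟨k, hk, hn⟩ := exists_new h hC
    exact ⟨k, hk, hn⟩
  set k1 := Nat.find hex with hk1def
  obtain ⟨hk1K, hk1N⟩ := Nat.find_spec hex
  have hmin : ∀ m < k1, ¬ New w C m := by
    intro m hm hn
    exact Nat.find_min hex hm ⟨lt_trans hm hk1K, hn⟩
  have hCne : C.Nonempty := Finset.card_pos.mp (by omega)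
  obtain ⟨u, v, a, b, hu, hv, hw⟩ := hG k1 hk1K
  obtain ⟨i, hi, s, hs⟩ := axial_of_no_new hCne k1 hmin u hu
  obtain ⟨j, hj, s', hs'⟩ := axial_of_no_new hCne k1 hmin v hv
  have hform : msk C (w k1) = (a * s) • Pi.single i 1 + (b * s') • Pi.single j 1 := by
    rw [hw, msk_add, msk_smul, msk_smul, hs, hs', smul_smul, smul_smul]
  have hei : Av w k1 (Pi.single i 1) := Or.inr (Or.inl ⟨i, rfl⟩)
  have hej : Av w k1 (Pi.single j 1) := Or.inr (Or.inl ⟨j, rfl⟩)
  have hij : i ≠ j := by
    rintro rfl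
    apply hk1N _ hei (a * s + b * s')
    rw [hform, msk_single_mem hi, add_smul]
  have hα : a * s ≠ 0 := by
    intro h0
    apply hk1N _ hej (b * s')
    rw [hform, msk_single_mem hj, h0, zero_smul, zero_add]
  have hβ : b * s' ≠ 0 := by
    intro h0
    apply hk1N _ hei (a * s)
    rw [hform, msk_single_mem hi, h0, zero_smul, add_zero]
  set α := a * s with hαdef
  set β := b * s' with hβdef
  have hki : ¬ New w (C.erase i) k1 := by
    intro hn
    apply hn _ hej β
    rw [← msk_erase_msk, hform, msk_add, msk_smul, msk_smul,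
      msk_single_not_mem (Finset.notMem_erase i C), smul_zero, zero_add]
  have hkj : ¬ New w (C.erase j) k1 := by
    intro hn
    apply hn _ hei α
    rw [← msk_erase_msk, hform, msk_add, msk_smul, msk_smul,
      msk_single_not_mem (Finset.notMem_erase j C), smul_zero, add_zero]
  by_contra hcon
  push Not at hcon
  have Hi : ∀ k < K, k ≠ k1 → New w C k → New w (C.erase i) k := by
    intro k hk hne hn
    exact hcon i hi k1 hk1K k hk (Ne.symm hne) hk1N hki hn
  have Hj : ∀ k < K, k ≠ k1 → New w C k → New w (C.erase j) k := by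
    intro k hk hne hn
    exact hcon j hj k1 hk1K k hk (Ne.symm hne) hk1N hkj hn
  have key : ∀ k : ℕ, k ≤ K → ∀ u, Av w k u → Tri i j α β (msk C u) := by
    intro k
    induction k using Nat.strong_induction_on with
    | _ k ih =>
      intro hkK u hu
      rcases hu with rfl | ⟨l, rfl⟩ | ⟨m, hm, rfl⟩
      · left; simp [msk_zero]
      · by_cases hl : l ∈ C
        · rw [msk_single_mem hl]
          by_cases hli : l = i
          · right; left; exact ⟨1, by rw [hli, one_smul]⟩
          · by_cases hlj : l = j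
            · right; right; exact ⟨1, by rw [hlj, one_smul]⟩
            · left
              simp [Pi.single_apply, Ne.symm hli, Ne.symm hlj]
        · left; simp [msk_single_not_mem hl]
      · have hmK : m < K := lt_of_lt_of_le hm hkK
        by_cases hmk : m = k1
        · left
          rw [hmk, hform]
          simp [Pi.single_apply, hij, Ne.symm hij]
          ring
        · by_cases hmN : New w C m
          · have h1 := Hi m hmK hmk hmN
            have h2 := Hj m hmK hmk hmN
            obtain ⟨u, v, a, b, hu, hv, hw⟩ := hG m hmK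
            have tu := ih m hm (le_of_lt hmK) u hu
            have tv := ih m hm (le_of_lt hmK) v hv
            have killu : ∀ (c : ι) (t : 𝕜), msk C u = t • Pi.single c 1 →
                ¬ New w (C.erase c) m := by
              intro c t ht hn
              apply hn v hv b
              rw [hw, msk_add, msk_smul, msk_smul, ← msk_erase_msk C c u, ht, msk_smul,
                msk_single_not_mem (Finset.notMem_erase c C), smul_zero, smul_zero, zero_add]
            have killv : ∀ (c : ι) (t : 𝕜), msk C v = t • Pi.single c 1 →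
                ¬ New w (C.erase c) m := by
              intro c t ht hn
              apply hn u hu a
              rw [hw, msk_add, msk_smul, msk_smul, ← msk_erase_msk C c v, ht, msk_smul,
                msk_single_not_mem (Finset.notMem_erase c C), smul_zero, smul_zero, add_zero]
            rcases tu with tu | ⟨t, ht⟩ | ⟨t, ht⟩
            · rcases tv with tv | ⟨t, ht⟩ | ⟨t, ht⟩
              · left
                rw [hw, msk_add, msk_smul, msk_smul]
                simp only [Pi.add_apply, Pi.smul_apply, smul_eq_mul]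
                linear_combination a * tu + b * tv
              · exact absurd h1 (killv i t ht)
              · exact absurd h2 (killv j t ht)
            · exact absurd h1 (killu i t ht)
            · exact absurd h2 (killu j t ht)
          · unfold New at hmN
            push Not at hmN
            obtain ⟨u', hu', c, hc⟩ := hmN
            rw [hc]
            exact (ih m hm (le_of_lt hmK) u' hu').smul c
  have hrow : ∀ y ∈ Y, β * y i = α * y j := by
    intro y hy
    obtain ⟨u, c, hu, hyu⟩ := h.av y hy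
    have t := (key K le_rfl u hu).smul c
    rw [← msk_smul, ← hyu] at t
    rcases t with t | ⟨t, ht⟩ | ⟨t, ht⟩
    · rwa [msk_apply_mem hi, msk_apply_mem hj] at t
    · exfalso
      have := congrFun ht j
      rw [msk_apply_mem hj] at this
      apply h.nz y hy j hj
      rw [this]; simp [Ne.symm hij]
    · exfalso
      have := congrFun ht i
      rw [msk_apply_mem hi] at this
      apply h.nz y hy i hi
      rw [this]; simp [hij]
  obtain ⟨y, hy, y', hy', hne⟩ := h.ind i hi j hj hij
  apply hne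
  have e1 := hrow y hy
  have e2 := hrow y' hy'
  have : α * (y i * y' j - y j * y' i) = 0 := by
    linear_combination (-y i) * e2 + y' i * e1
  rcases mul_eq_zero.mp this with h0 | h0
  · exact absurd h0 hα
  · exact sub_eq_zero.mp h0


open Classical in
/-- number of gates before time `K` that are new with respect to `C` -/
noncomputable def cnt (w : ℕ → ι → 𝕜) (C : Finset ι) (K : ℕ) : ℕ :=
  ((Finset.range K).filter (fun k => New w C k)).card

lemma cnt_mono (w : ℕ → ι → 𝕜) (C : Finset ι) {K K' : ℕ} (h : K ≤ K') :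
    cnt w C K ≤ cnt w C K' := by
  classical
  unfold cnt
  apply Finset.card_le_card
  intro k hk
  rw [Finset.mem_filter, Finset.mem_range] at hk ⊢
  exact ⟨lt_of_lt_of_le hk.1 h, hk.2⟩

lemma cnt_succ_of_new (w : ℕ → ι → 𝕜) (C : Finset ι) {K : ℕ} (h : New w C K) :
    cnt w C (K + 1) = cnt w C K + 1 := by
  classical
  unfold cnt
  rw [Finset.range_add_one, Finset.filter_insert, if_pos h, Finset.card_insert_of_notMem]
  simp

theorem elim {w : ℕ → ι → 𝕜} {K : ℕ} {Y : Set (ι → 𝕜)} (hG : ∀ k < K, Gate w k) :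
    ∀ (m : ℕ) (C : Finset ι), C.card = m + 1 → Rows w K C Y → 2 * m ≤ cnt w C K := by
  classical
  intro m
  induction m with
  | zero => intro C _ _; simp
  | succ m ih =>
    intro C hC h
    obtain ⟨c, hc, k1, hk1, k2, hk2, hne, n1, e1, n2, e2⟩ := step h hG (by omega)
    have hcard : (C.erase c).card = m + 1 := by
      rw [Finset.card_erase_of_mem hc, hC]; rfl
    have := ih (C.erase c) hcard (h.erase c)
    have hsub : insert k1 (insert k2 ((Finset.range K).filter (fun k => New w (C.erase c) k))) ⊆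
        (Finset.range K).filter (fun k => New w C k) := by
      intro k hk
      rw [Finset.mem_insert, Finset.mem_insert] at hk
      rw [Finset.mem_filter, Finset.mem_range]
      rcases hk with rfl | rfl | hk
      · exact ⟨hk1, n1⟩
      · exact ⟨hk2, n2⟩
      · rw [Finset.mem_filter, Finset.mem_range] at hk
        exact ⟨hk.1, hk.2.mono⟩
    have hc2 := Finset.card_le_card hsub
    rw [Finset.card_insert_of_notMem, Finset.card_insert_of_notMem] at hc2
    · unfold cnt at this ⊢
      omega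
    · simp [e2]
    · simp [hne, e1]

/-- Extra rows: every further pairwise non-proportional row costs one more new gate. -/
theorem elim_extra [Fintype ι] {J : Type*} [DecidableEq J] {w : ℕ → ι → 𝕜} (y : J → ι → 𝕜) (s0 : ℕ)
    (hcard : 2 ≤ Fintype.card ι)
    (hnz : ∀ j i, y j i ≠ 0)
    (hnp : ∀ j j', j ≠ j' → ∀ c : 𝕜, y j ≠ c • y j')
    (hind : ∀ Y : Finset J, s0 ≤ Y.card → ∀ i i' : ι, i ≠ i' →
      ∃ j ∈ Y, ∃ j' ∈ Y, y j i * y j' i' ≠ y j i' * y j' i) :
    ∀ (t : ℕ) (Y : Finset J) (K : ℕ), Y.card = s0 + t → (∀ k < K, Gate w k) →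
      (∀ j ∈ Y, ∃ u, ∃ c : 𝕜, Av w K u ∧ y j = c • u) →
      2 * (Fintype.card ι - 1) + t ≤ cnt w Finset.univ K := by
  classical
  intro t
  induction t with
  | zero =>
    intro Y K hY hG hav
    have hR : Rows w K Finset.univ (y '' (Y : Set J)) := by
      refine ⟨?_, ?_, ?_⟩
      · rintro _ ⟨j, hj, rfl⟩; exact hav j hj
      · rintro _ ⟨j, hj, rfl⟩ i _; exact hnz j i
      · intro i _ i' _ hii
        obtain ⟨j, hj, j', hj', hne⟩ := hind Y (by omega) i i' hii
        exact ⟨y j, ⟨j, hj, rfl⟩, y j', ⟨j', hj', rfl⟩, hne⟩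
    have := elim hG (Fintype.card ι - 1) Finset.univ (by rw [Finset.card_univ]; omega) hR
    simpa using this
  | succ t ih =>
    intro Y K hY hG hav
    obtain ⟨i0, i1, hi01⟩ := Fintype.one_lt_card_iff.mp hcard
    -- a row is never a multiple of zero or a unit vector
    have hbad0 : ∀ j (c : 𝕜), y j ≠ c • (0 : ι → 𝕜) := by
      intro j c he
      apply hnz j i0
      rw [he]; simp
    have hbad1 : ∀ j (c : 𝕜) (i : ι), y j ≠ c • (Pi.single i 1 : ι → 𝕜) := by
      intro j c i he
      by_cases hi : i0 = i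
      · apply hnz j i1
        rw [he]; simp [Pi.single_apply, (hi ▸ hi01.symm : i1 ≠ i)]
      · apply hnz j i0
        rw [he]; simp [Pi.single_apply, hi]
    have hex : ∀ j ∈ Y, ∃ k, k < K ∧ ∃ c : 𝕜, y j = c • w k := by
      intro j hj
      obtain ⟨u, c, hu, he⟩ := hav j hj
      rcases hu with rfl | ⟨i, rfl⟩ | ⟨m, hm, rfl⟩
      · exact absurd he (hbad0 j c)
      · exact absurd he (hbad1 j c i)
      · exact ⟨m, hm, c, he⟩
    let κ : J → ℕ := fun j => if hj : j ∈ Y then Nat.find (hex j hj) else 0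
    have hκspec : ∀ j (hj : j ∈ Y), κ j < K ∧ ∃ c : 𝕜, y j = c • w (κ j) := by
      intro j hj
      have := Nat.find_spec (hex j hj)
      simp only [κ, dif_pos hj]
      exact this
    have hκmin : ∀ j (_ : j ∈ Y) (m : ℕ), m < κ j → ∀ c : 𝕜, y j ≠ c • w m := by
      intro j hj m hm c he
      simp only [κ, dif_pos hj] at hm
      have hlt : m < K := lt_trans hm (Nat.find_spec (hex j hj)).1
      exact Nat.find_min (hex j hj) hm ⟨hlt, c, he⟩
    have hYne : Y.Nonempty := Finset.card_pos.mp (by omega)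
    obtain ⟨js, hjs, hmax⟩ := Finset.exists_max_image Y κ hYne
    obtain ⟨hκK, cs, hcs⟩ := hκspec js hjs
    have hlt : ∀ j ∈ Y.erase js, κ j < κ js := by
      intro j hj
      have hjY := Finset.mem_of_mem_erase hj
      have hne := Finset.ne_of_mem_erase hj
      refine lt_of_le_of_ne (hmax j hjY) ?_
      intro he
      obtain ⟨-, c, hc⟩ := hκspec j hjY
      rw [he] at hc
      have hc0 : cs ≠ 0 := by
        rintro rfl
        apply hnz js i0
        rw [hcs]; simp
      apply hnp j js hne (c * cs⁻¹)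
      rw [hc, hcs, smul_smul, mul_assoc, inv_mul_cancel₀ hc0, mul_one]
    have hih := ih (Y.erase js) (κ js) (by rw [Finset.card_erase_of_mem hjs, hY]; omega)
      (fun k hk => hG k (lt_trans hk hκK))
      (by
        intro j hj
        obtain ⟨-, c, hc⟩ := hκspec j (Finset.mem_of_mem_erase hj)
        exact ⟨w (κ j), c, Or.inr (Or.inr ⟨κ j, hlt j hj, rfl⟩), hc⟩)
    have hnew : New w Finset.univ (κ js) := by
      intro u hu c he
      rw [msk_univ, msk_univ] at he
      rw [he, smul_smul] at hcs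
      rcases hu with rfl | ⟨i, rfl⟩ | ⟨m, hm, rfl⟩
      · exact hbad0 js _ hcs
      · exact hbad1 js _ i hcs
      · exact hκmin js hjs m hm _ hcs
    have h1 := cnt_succ_of_new w Finset.univ hnew
    have h2 : cnt w Finset.univ (κ js + 1) ≤ cnt w Finset.univ K :=
      cnt_mono w Finset.univ (Nat.succ_le_of_lt hκK)
    omega

end Vale.Agent.P344
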