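import Mathlib
import Vale.Agent.P344.Elim

namespace Vale.Agent.P344

open Finset Polynomial

variable {n : ℕ}

/-- row `j` of the Fourier matrix built on `ζ`, as a coefficient vector -/
def row (ζ : ℂ) (j : Fin n) : Fin n → ℂ := fun k => ζ ^ ((j : ℕ) * (k : ℕ))

/-- the polynomial with coefficient vector `q` -/
noncomputable def polyOf (q : Fin n → ℚ) : ℚ[X] := ∑ j : Fin n, C (q j) * X ^ (j : ℕ)

lemma aeval_polyOf (q : Fin n → ℚ) (z : ℂ) :
    aeval z (polyOf q) = ∑ j : Fin n, (q j : ℂ) * z ^ (j : ℕ) := by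
  simp [polyOf, map_sum]

lemma polyOf_eq_zero {q : Fin n → ℚ} (h : polyOf q = 0) : q = 0 := by
  funext l
  have := congrArg (fun p => p.coeff (l : ℕ)) h
  simp only [polyOf, finsetSum_coeff, coeff_C_mul_X_pow, coeff_zero] at this
  rw [Finset.sum_eq_single l] at this
  · simpa using this
  · intro b _ hb
    rw [if_neg]
    intro e
    exact hb (Fin.ext e.symm)
  · simp

lemma q_zero_of_all_zero {ζ : ℂ} (hn : 0 < n) (hζ : IsPrimitiveRoot ζ n) (q : Fin n → ℚ)
    (h : ∀ k : Fin n, ∑ j : Fin n, (q j : ℂ) * ζ ^ ((j : ℕ) * (k : ℕ)) = 0) : q = 0 := by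
  apply polyOf_eq_zero
  have hinj : Function.Injective (algebraMap ℚ ℂ) := (algebraMap ℚ ℂ).injective
  apply Polynomial.map_injective (algebraMap ℚ ℂ) hinj
  rw [Polynomial.map_zero]
  apply Polynomial.eq_zero_of_natDegree_lt_card_of_eval_eq_zero _ (f := fun k : Fin n => ζ ^ (k : ℕ))
  · intro a b hab
    exact Fin.ext (hζ.pow_inj a.2 b.2 hab)
  · intro k
    rw [Polynomial.eval_map_algebraMap, aeval_polyOf, ← h k]
    apply Finset.sum_congr rfl
    intro j _
    rw [← pow_mul, mul_comm (k : ℕ)]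
  · rw [Fintype.card_fin]
    by_cases hp : polyOf q = 0
    · rw [hp]
      simpa using hn
    · rw [Polynomial.natDegree_map]
      exact (Polynomial.natDegree_lt_iff_degree_lt hp).mpr (Polynomial.degree_sum_fin_lt _)

/-- rational DFT values are constant on gcd classes -/
lemma r_gcd {ζ : ℂ} (hn : 0 < n) (hζ : IsPrimitiveRoot ζ n) (q r : Fin n → ℚ)
    (h : ∀ k : Fin n, ∑ j : Fin n, (q j : ℂ) * ζ ^ ((j : ℕ) * (k : ℕ)) = (r k : ℂ)) (k : Fin n) :
    r k = r ⟨Nat.gcd k n % n, Nat.mod_lt _ hn⟩ := by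
  set g := Nat.gcd k n with hg
  have hgpos : 0 < g := Nat.gcd_pos_of_pos_right _ hn
  have hgn : g ∣ n := Nat.gcd_dvd_right _ _
  have hgk : g ∣ (k : ℕ) := Nat.gcd_dvd_left _ _
  set e := n / g with he
  have hepos : 0 < e := Nat.div_pos (Nat.le_of_dvd hn hgn) hgpos
  have h1 : IsPrimitiveRoot (ζ ^ g) e := hζ.pow_of_dvd hgpos.ne' hgn
  have hcop : ((k : ℕ) / g).Coprime e := Nat.coprime_div_gcd_div_gcd hgpos
  have h2 : IsPrimitiveRoot (ζ ^ (k : ℕ)) e := by
    have := h1.pow_of_coprime _ hcop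
    rwa [← pow_mul, Nat.mul_div_cancel' hgk] at this
  have m1 := Polynomial.cyclotomic_eq_minpoly_rat h1 hepos
  have m2 := Polynomial.cyclotomic_eq_minpoly_rat h2 hepos
  have hz : aeval (ζ ^ (k : ℕ)) (polyOf q - C (r k)) = 0 := by
    rw [map_sub, aeval_polyOf, aeval_C, show (algebraMap ℚ ℂ) (r k) = (r k : ℂ) from rfl, ← h k,
      sub_eq_zero]
    apply Finset.sum_congr rfl
    intro j _
    rw [← pow_mul, mul_comm (k : ℕ)]
  have hd : minpoly ℚ (ζ ^ g) ∣ polyOf q - C (r k) := by
    rw [← m1, m2]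
    exact minpoly.dvd ℚ _ hz
  obtain ⟨Q, hQ⟩ := hd
  have hz' : aeval (ζ ^ g) (polyOf q - C (r k)) = 0 := by
    rw [hQ, map_mul, minpoly.aeval, zero_mul]
  rw [map_sub, aeval_polyOf, aeval_C, sub_eq_zero] at hz'
  have hpow : ζ ^ g = ζ ^ (g % n) := by
    conv_lhs => rw [← Nat.div_add_mod g n, pow_add, pow_mul, hζ.pow_eq_one, one_pow, one_mul]
  have := h ⟨g % n, Nat.mod_lt _ hn⟩
  have h3 : ((r ⟨g % n, Nat.mod_lt _ hn⟩ : ℚ) : ℂ) = (r k : ℂ) := by
    rw [← this]
    rw [← show (algebraMap ℚ ℂ) (r k) = (r k : ℂ) from rfl, ← hz']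
    apply Finset.sum_congr rfl
    intro j _
    rw [hpow, ← pow_mul, mul_comm (g % n)]
  exact (Rat.cast_injective h3).symm


/-- the rational-linear map `(q, r) ↦ ∑ q_j row_j - r` -/
noncomputable def Psi (ζ : ℂ) : ((Fin n → ℚ) × (Fin n → ℚ)) →ₗ[ℚ] (Fin n → ℂ) where
  toFun p := fun k => ∑ j : Fin n, (p.1 j : ℂ) * ζ ^ ((j : ℕ) * (k : ℕ)) - (p.2 k : ℂ)
  map_add' p p' := by
    funext k
    simp only [Prod.fst_add, Prod.snd_add, Pi.add_apply, Rat.cast_add, add_mul,
      Finset.sum_add_distrib]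
    ring
  map_smul' c p := by
    funext k
    simp only [Prod.smul_fst, Prod.smul_snd, Pi.smul_apply, smul_eq_mul, Rat.cast_mul,
      RingHom.id_apply, Rat.smul_def, mul_sub, Finset.mul_sum, mul_assoc]

/-- read off the `r` part at the divisor positions -/
noncomputable def Phi (hn : 0 < n) : ((Fin n → ℚ) × (Fin n → ℚ)) →ₗ[ℚ] (n.divisors → ℚ) where
  toFun p := fun d => p.2 ⟨(d : ℕ) % n, Nat.mod_lt _ hn⟩
  map_add' p p' := by funext d; simp
  map_smul' c p := by funext d; simp

lemma finrank_ker_Psi {ζ : ℂ} (hn : 0 < n) (hζ : IsPrimitiveRoot ζ n) :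
    Module.finrank ℚ (LinearMap.ker (Psi (n := n) ζ)) ≤ n.divisors.card := by
  have hinj : Function.Injective ((Phi hn) ∘ₗ (LinearMap.ker (Psi (n := n) ζ)).subtype) := by
    rw [← LinearMap.ker_eq_bot, LinearMap.ker_eq_bot']
    rintro ⟨⟨q, r⟩, hp⟩ h0
    rw [LinearMap.mem_ker] at hp
    have hk : ∀ k : Fin n, ∑ j : Fin n, (q j : ℂ) * ζ ^ ((j : ℕ) * (k : ℕ)) = (r k : ℂ) := by
      intro k
      have := congrFun hp k
      simp only [Psi, LinearMap.coe_mk, AddHom.coe_mk, Pi.zero_apply] at this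
      exact sub_eq_zero.mp this
    have hr : r = 0 := by
      funext k
      rw [r_gcd hn hζ q r hk k]
      have hmem : Nat.gcd k n ∈ n.divisors :=
        Nat.mem_divisors.mpr ⟨Nat.gcd_dvd_right _ _, hn.ne'⟩
      have := congrFun h0 ⟨Nat.gcd k n, hmem⟩
      simpa [Phi] using this
    have hq : q = 0 := by
      apply q_zero_of_all_zero hn hζ q
      intro k
      rw [hk k, hr]
      simp
    subst hr; subst hq
    rfl
  have := LinearMap.finrank_le_finrank_of_injective hinj
  rwa [Module.finrank_fintype_fun_eq_card, Fintype.card_coe] at this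

lemma finrank_range_Psi {ζ : ℂ} (hn : 0 < n) (hζ : IsPrimitiveRoot ζ n) :
    2 * n ≤ Module.finrank ℚ (LinearMap.range (Psi (n := n) ζ)) + n.divisors.card := by
  have h1 := LinearMap.finrank_range_add_finrank_ker (Psi (n := n) ζ)
  rw [Module.finrank_prod, Module.finrank_fin_fun] at h1
  have h2 := finrank_ker_Psi hn hζ
  omega

/-- gate `k` is a scalar multiple of an available vector -/
def IsS (w : ℕ → Fin n → ℂ) (k : ℕ) : Prop := ∃ (c : ℂ) (u : Fin n → ℂ), Av w k u ∧ w k = c • u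

/-- gate `k` is a sum or a difference of available vectors -/
def IsA (w : ℕ → Fin n → ℂ) (k : ℕ) : Prop :=
  ∃ u v : Fin n → ℂ, Av w k u ∧ Av w k v ∧ (w k = u + v ∨ w k = u - v)

open Classical in
theorem scalar_bound {ζ : ℂ} (hn : 0 < n) (hζ : IsPrimitiveRoot ζ n) (w : ℕ → Fin n → ℂ) (s : ℕ)
    (hg : ∀ k < s, IsA w k ∨ IsS w k) (hout : ∀ j : Fin n, Av w s (row ζ j)) :
    n ≤ ((Finset.range s).filter (fun k => IsS w k)).card + n.divisors.card := by
  set T : Finset (Fin n → ℂ) :=
    (Finset.univ.image (fun i : Fin n => (Pi.single i 1 : Fin n → ℂ))) ∪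
      ((Finset.range s).filter (fun k => IsS w k)).image w with hT
  set G : Submodule ℚ (Fin n → ℂ) := Submodule.span ℚ (T : Set (Fin n → ℂ)) with hGdef
  have hTcard : T.card ≤ n + ((Finset.range s).filter (fun k => IsS w k)).card := by
    refine (Finset.card_union_le _ _).trans ?_
    refine add_le_add ?_ Finset.card_image_le
    refine Finset.card_image_le.trans ?_
    simp
  have hGfin : Module.finrank ℚ G ≤ T.card := finrank_span_finset_le_card T
  have hbase : ∀ i : Fin n, (Pi.single i 1 : Fin n → ℂ) ∈ G := by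
    intro i
    apply Submodule.subset_span
    rw [hT]
    simp
  have hw : ∀ k : ℕ, k ≤ s → ∀ u, Av w k u → u ∈ G := by
    intro k
    induction k using Nat.strong_induction_on with
    | _ k ih =>
      intro hk u hu
      rcases hu with rfl | ⟨i, rfl⟩ | ⟨m, hm, rfl⟩
      · exact G.zero_mem
      · exact hbase i
      · have hms : m < s := lt_of_lt_of_le hm hk
        by_cases hS : IsS w m
        · apply Submodule.subset_span
          rw [hT]
          simp only [Finset.coe_union, Finset.coe_image, Set.mem_union, Set.mem_image,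
            Finset.mem_coe, Finset.mem_filter, Finset.mem_range]
          right
          exact ⟨m, ⟨hms, hS⟩, rfl⟩
        · rcases hg m hms with hA | hS'
          · obtain ⟨u, v, hu, hv, h | h⟩ := hA
            · rw [h]
              exact G.add_mem (ih m hm hms.le u hu) (ih m hm hms.le v hv)
            · rw [h]
              exact G.sub_mem (ih m hm hms.le u hu) (ih m hm hms.le v hv)
          · exact absurd hS' hS
  have hrange : LinearMap.range (Psi (n := n) ζ) ≤ G := by
    rintro _ ⟨⟨q, r⟩, rfl⟩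
    have : Psi ζ (q, r) = ∑ j : Fin n, (q j) • row ζ j - ∑ i : Fin n, (r i) • (Pi.single i 1 : Fin n → ℂ) := by
      funext k
      simp only [Psi, LinearMap.coe_mk, AddHom.coe_mk, Pi.sub_apply, Finset.sum_apply,
        Pi.smul_apply, row, Rat.smul_def, Pi.single_apply, mul_ite, mul_one, mul_zero,
        Finset.sum_ite_eq, Finset.mem_univ, if_true]
    rw [this]
    apply G.sub_mem
    · exact G.sum_mem (fun j _ => G.smul_mem _ (hw s le_rfl _ (hout j)))
    · exact G.sum_mem (fun i _ => G.smul_mem _ (hbase i))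
  have hfin : Module.Finite ℚ G := Module.Finite.span_finset ℚ T
  have h1 := Submodule.finrank_mono hrange
  have h2 := finrank_range_Psi hn hζ
  omega

end Vale.Agent.P344
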