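import Mathlib
import Vale.Agent.P344.Defs
import Vale.Agent.P344.Elim
import Vale.Agent.P344.Scalar

namespace Vale.Agent.P344

open Finset

variable {n : ℕ}

lemma row_ne_zero {ζ : ℂ} (hζ0 : ζ ≠ 0) (j k : Fin n) : row ζ j k ≠ 0 := pow_ne_zero _ hζ0

lemma row_not_prop {ζ : ℂ} (hn : 2 ≤ n) (hζ : IsPrimitiveRoot ζ n) (j j' : Fin n) (hjj : j ≠ j')
    (c : ℂ) : row ζ j ≠ c • row ζ j' := by
  intro he
  have h0 := congrFun he ⟨0, by omega⟩
  have h1 := congrFun he ⟨1, by omega⟩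
  simp only [row, Pi.smul_apply, smul_eq_mul, mul_zero, pow_zero, mul_one] at h0 h1
  rw [← h0, one_mul] at h1
  exact hjj (Fin.ext (hζ.pow_inj j.2 j'.2 h1))

lemma card_le_of_pow_eq {ζ : ℂ} (hn : 2 ≤ n) (hζ : IsPrimitiveRoot ζ n) (d : ℕ) (hd0 : 0 < d)
    (hdn : d < n) (Y : Finset (Fin n))
    (h : ∀ j ∈ Y, ∀ j' ∈ Y, (ζ ^ d) ^ (j : ℕ) = (ζ ^ d) ^ (j' : ℕ)) :
    Y.card ≤ n / n.minFac := by
  rcases Y.eq_empty_or_nonempty with rfl | ⟨j0, hj0⟩
  · simp
  have hζ0 : ζ ≠ 0 := hζ.ne_zero (by omega)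
  set ξ : ℂˣ := Units.mk0 (ζ ^ d) (pow_ne_zero _ hζ0) with hξ
  set e := orderOf ξ with he
  have hξn : ξ ^ n = 1 := by
    apply Units.ext
    rw [Units.val_pow_eq_pow_val, hξ, Units.val_mk0, ← pow_mul, mul_comm, pow_mul, hζ.pow_eq_one,
      one_pow, Units.val_one]
  have hen : e ∣ n := orderOf_dvd_of_pow_eq_one hξn
  have hξ1 : ξ ≠ 1 := by
    intro h1
    have h2 : ζ ^ d = 1 := by
      have := congrArg Units.val h1
      rwa [hξ, Units.val_mk0, Units.val_one] at this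
    have := hζ.dvd_of_pow_eq_one d h2
    exact absurd (Nat.le_of_dvd hd0 this) (by omega)
  have he1 : e ≠ 1 := by
    intro h1
    exact hξ1 (orderOf_eq_one_iff.mp h1)
  have he0 : 0 < e := Nat.pos_of_dvd_of_pos hen (by omega)
  have he2 : 2 ≤ e := by omega
  have hq : n.minFac ≤ e := Nat.minFac_le_of_dvd he2 hen
  have hsub : Y.image (fun j : Fin n => (j : ℕ)) ⊆
      (Finset.range n).filter (fun x => x ≡ (j0 : ℕ) [MOD e]) := by
    intro x hx
    obtain ⟨j, hj, rfl⟩ := Finset.mem_image.mp hx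
    rw [Finset.mem_filter, Finset.mem_range]
    refine ⟨j.2, ?_⟩
    have h3 : ξ ^ (j : ℕ) = ξ ^ (j0 : ℕ) := by
      apply Units.ext
      rw [Units.val_pow_eq_pow_val, Units.val_pow_eq_pow_val, hξ, Units.val_mk0]
      exact h j hj j0 hj0
    exact pow_eq_pow_iff_modEq.mp h3
  have hc := Finset.card_le_card hsub
  rw [Finset.card_image_of_injective _ Fin.val_injective, ← Nat.count_eq_card_filter_range,
    Nat.count_modEq_card _ he0, Nat.mod_eq_zero_of_dvd hen] at hc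
  simp only [not_lt_zero, if_false, add_zero] at hc
  exact hc.trans (Nat.div_le_div_left hq (Nat.minFac_pos n))

lemma row_ind_aux {ζ : ℂ} (hn : 2 ≤ n) (hζ : IsPrimitiveRoot ζ n) (Y : Finset (Fin n))
    (hY : n / n.minFac + 1 ≤ Y.card) (i i' : Fin n) (hii : (i' : ℕ) < (i : ℕ)) :
    ∃ j ∈ Y, ∃ j' ∈ Y, row ζ j i * row ζ j' i' ≠ row ζ j i' * row ζ j' i := by
  by_contra hcon
  push Not at hcon
  have hζ0 : ζ ≠ 0 := hζ.ne_zero (by omega)
  have := card_le_of_pow_eq hn hζ ((i : ℕ) - (i' : ℕ)) (by omega) (by omega) Y (by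
    intro j hj j' hj'
    have h := hcon j hj j' hj'
    simp only [row] at h
    obtain ⟨d, hd⟩ : ∃ d, (i : ℕ) = (i' : ℕ) + d := ⟨(i : ℕ) - (i' : ℕ), by omega⟩
    have hd' : (i : ℕ) - (i' : ℕ) = d := by omega
    rw [hd', ← pow_mul, ← pow_mul]
    rw [hd, mul_add, mul_add, pow_add, pow_add] at h
    have hne : ζ ^ ((j : ℕ) * (i' : ℕ)) * ζ ^ ((j' : ℕ) * (i' : ℕ)) ≠ 0 :=
      mul_ne_zero (pow_ne_zero _ hζ0) (pow_ne_zero _ hζ0)
    apply mul_left_cancel₀ hne
    rw [mul_comm d, mul_comm d]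
    linear_combination h)
  omega

lemma row_ind {ζ : ℂ} (hn : 2 ≤ n) (hζ : IsPrimitiveRoot ζ n) (Y : Finset (Fin n))
    (hY : n / n.minFac + 1 ≤ Y.card) (i i' : Fin n) (hii : i ≠ i') :
    ∃ j ∈ Y, ∃ j' ∈ Y, row ζ j i * row ζ j' i' ≠ row ζ j i' * row ζ j' i := by
  rcases lt_or_gt_of_ne (fun e => hii (Fin.ext e) : (i : ℕ) ≠ (i' : ℕ)) with h | h
  · obtain ⟨j, hj, j', hj', hne⟩ := row_ind_aux hn hζ Y hY i' i h
    exact ⟨j, hj, j', hj', hne.symm⟩
  · exact row_ind_aux hn hζ Y hY i i' h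

open Classical in
/-- the bound for vector-valued gate sequences -/
theorem vec_bound {ζ : ℂ} (hn : 2 ≤ n) (hζ : IsPrimitiveRoot ζ n) (w : ℕ → Fin n → ℂ) (s : ℕ)
    (hg : ∀ k < s, IsA w k ∨ IsS w k) (hout : ∀ j : Fin n, Av w s (row ζ j)) :
    4 * n ≤ s + n / n.minFac + n.divisors.card + 3 := by
  have hζ0 : ζ ≠ 0 := hζ.ne_zero (by omega)
  have hsc := scalar_bound (by omega) hζ w s hg hout
  have hG : ∀ k < s, Gate w k := by
    intro k hk
    rcases hg k hk with ⟨u, v, hu, hv, h | h⟩ | ⟨c, u, hu, h⟩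
    · exact ⟨u, v, 1, 1, hu, hv, by rw [h, one_smul, one_smul]⟩
    · exact ⟨u, v, 1, -1, hu, hv, by rw [h, one_smul, neg_one_smul, sub_eq_add_neg]⟩
    · exact ⟨u, u, c, 0, hu, hu, by rw [h, zero_smul, add_zero]⟩
  have hdiv : n / n.minFac + 1 ≤ n := by
    have h2 : 2 ≤ n.minFac := (Nat.minFac_prime (by omega)).two_le
    have : n / n.minFac ≤ n / 2 := Nat.div_le_div_left h2 (by omega)
    omega
  have hadd := elim_extra (w := w) (row ζ) (n / n.minFac + 1) (by rw [Fintype.card_fin]; exact hn)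
    (fun j i => row_ne_zero hζ0 j i) (fun j j' hjj c => row_not_prop hn hζ j j' hjj c)
    (fun Y hY i i' hii => row_ind hn hζ Y hY i i' hii)
    (n - (n / n.minFac + 1)) Finset.univ s (by rw [Finset.card_univ, Fintype.card_fin]; omega) hG
    (fun j _ => ⟨row ζ j, 1, hout j, by rw [one_smul]⟩)
  rw [Fintype.card_fin] at hadd
  have hsplit := Finset.card_filter_add_card_filter_not (s := Finset.range s) (fun k => IsS w k)
  rw [Finset.card_range] at hsplit
  have hle : cnt w Finset.univ s ≤ ((Finset.range s).filter (fun k => ¬ IsS w k)).card := by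
    unfold cnt
    apply Finset.card_le_card
    intro k hk
    rw [Finset.mem_filter] at hk ⊢
    refine ⟨hk.1, ?_⟩
    rintro ⟨c, u, hu, he⟩
    apply hk.2 u hu c
    rw [he, msk_smul]
  omega

/-- coefficient vector of a value -/
def coef (f : Val n) : Fin n → ℂ := fun i => f (Pi.single i 1)

lemma coef_add (u v : Val n) : coef (u + v) = coef u + coef v := rfl
lemma coef_sub (u v : Val n) : coef (u - v) = coef u - coef v := rfl
lemma coef_smul (c : ℂ) (u : Val n) : coef (c • u) = c • coef u := rfl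
lemma coef_zero : coef (0 : Val n) = 0 := rfl
lemma coef_proj (i : Fin n) : coef (fun x : Fin n → ℂ => x i) = Pi.single i 1 := by
  funext k
  simp only [coef, Pi.single_apply]
  by_cases h : i = k
  · simp [h]
  · simp [h, Ne.symm h]

lemma coef_dftOut (j : Fin n) :
    coef (dftOut n j) = row (Complex.exp (2 * Real.pi * Complex.I / n)) j := by
  funext l
  simp only [coef, dftOut, row, Pi.single_apply, mul_ite, mul_one, mul_zero, Finset.sum_ite_eq',
    Finset.mem_univ, if_true]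

theorem circuit_bound (hn : 2 ≤ n) {s : ℕ} (g : Fin s → Val n) (hg : IsCircuit g)
    (hc : ComputesDFT g) : 4 * n ≤ s + n / n.minFac + n.divisors.card + 3 := by
  set w : ℕ → Fin n → ℂ := fun k => if h : k < s then coef (g ⟨k, h⟩) else 0 with hw
  have hav : ∀ (k : ℕ) (f : Val n), Avail g k f → Av w k (coef f) := by
    intro k f hf
    rcases hf with rfl | ⟨i, rfl⟩ | ⟨i, hi, rfl⟩
    · exact Or.inl coef_zero
    · exact Or.inr (Or.inl ⟨i, coef_proj i⟩)
    · refine Or.inr (Or.inr ⟨i, hi, ?_⟩)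
      simp only [hw, dif_pos i.2]
  have hwk : ∀ k (h : k < s), w k = coef (g ⟨k, h⟩) := by
    intro k h
    simp only [hw, dif_pos h]
  apply vec_bound hn (Complex.isPrimitiveRoot_exp n (by omega)) w s
  · intro k hk
    rcases hg ⟨k, hk⟩ with ⟨u, v, hu, hv, h | h⟩ | ⟨c, u, hu, h⟩
    · exact Or.inl ⟨coef u, coef v, hav k u hu, hav k v hv, Or.inl (by rw [hwk k hk, h, coef_add])⟩
    · exact Or.inl ⟨coef u, coef v, hav k u hu, hav k v hv, Or.inr (by rw [hwk k hk, h, coef_sub])⟩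
    · exact Or.inr ⟨c, coef u, hav k u hu, by rw [hwk k hk, h, coef_smul]⟩
  · intro j
    rw [← coef_dftOut]
    exact hav s _ (hc j)

end Vale.Agent.P344
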